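import Vale.Agent.P141.H222.NumOf
import Vale.Agent.P141.H736.FixBD
import Vale.Agent.P141.H302.BornU
import Vale.Agent.P141.H652.NumR
import Vale.Agent.P141.H652.NumQ
import Vale.Agent.P141.H548.LagU
import Vale.Agent.P141.H329.WinS
import Vale.Agent.P141.H989.CrB3
import Vale.Agent.P141.H74.CapBC
import Vale.Agent.P141.H74.CutBC

/-!
# P141, line (A), increasing part: the pair `(Bg, Cg)` at class data

`numBC` : `H886.NumBC`, hence the leaf `H408.LBCg`.
-/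

set_option linter.unusedSectionVars false
set_option linter.unusedVariables false

namespace Vale.Agent.P141.H121.BCF

open Finset Matrix
open Vale.Agent.P075 (Ix)
open Vale.Agent.P141.PL (Pt iv cx ix mem_iv)
open Vale.Agent.P141.PL.H315 (Tri)
open Vale.Agent.P141.PL.H103 Vale.Agent.P141.H103
open Vale.Agent.P141.H48 (US ES BSl)
open Vale.Agent.P141.H305 (ClsM kapM)
open Vale.Agent.P141.H401 (StQ FibU FibP cb)
open Vale.Agent.P141.H677 (rt KT GT cP tr_T)
open Vale.Agent.P141.H652 (Th eb ah dB payS PbS)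
open Vale.Agent.P141.H505.Sk1 (Ch eT)
open Vale.Agent.P141.H808 (thS cS)
open Vale.Agent.P141.H419.WFamR
open Vale.Agent.P141.H419.PairB (gnV)
open Vale.Agent.P141.H912 (wS)
open Vale.Agent.P141.H302 (bN tS Pr)
open Vale.Agent.P141.H548 (vN oN chg kinds)
open Vale.Agent.P141.H874 Vale.Agent.P141.H457
open Vale.Agent.P141.H408
open Vale.Agent.P141.H886
open Vale.Agent.P141.H989.CrB (fCRB mB)

noncomputable section

open scoped Classical

/-- charges and kinds, time `k + j`, weights of the lags -/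
def gV (j : ℕ) : NumF := fun ι _ _ p n ez F1 F2 F3 o K x s r U g u v Q1 Q2 Q3 x0 =>
  ∑ l ∈ range (K + 1), (3 / 4 : ℝ) ^ l * vN j l ι p n ez F1 F2 F3 o K x s r U g u v Q1 Q2 Q3 x0

/-- births, weights of the lags -/
def gB : NumF := fun ι _ _ p n ez F1 F2 F3 o K x s r U g u v Q1 Q2 Q3 x0 =>
  ∑ l ∈ range (K + 1), (3 / 4 : ℝ) ^ l *
    bN (l + 1) ι p n ez F1 F2 F3 o K x s r U g u v Q1 Q2 Q3 x0

theorem sumU_gV {j : ℕ} (hj : j ≤ 1) : SumU 1 (gV j) := H548.sumU_v hj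

theorem sumU_gB : SumU 1 gB := H302.sumU_b1

/-- the number of the second slot -/
def fE : NumF := fun ι _ _ p n ez F1 F2 F3 o K x s r U g u v Q1 Q2 Q3 x0 =>
  (gV 0 ι p n ez F1 F2 F3 o K x s r U g u v Q1 Q2 Q3 x0 +
    gB ι p n ez F1 F2 F3 o K x s r U g u v Q1 Q2 Q3 x0) +
  ((oN 0 ι p n ez F1 F2 F3 o K x s r U g u v Q1 Q2 Q3 x0 +
      gV 1 ι p n ez F1 F2 F3 o K x s r U g u v Q1 Q2 Q3 x0) +
    (bN 0 ι p n ez F1 F2 F3 o K x s r U g u v Q1 Q2 Q3 x0 +
      fCRB mB ι p n ez F1 F2 F3 o K x s r U g u v Q1 Q2 Q3 x0))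

/-- the number of the first slot -/
def fB : NumF := fun ι _ _ p n ez F1 F2 F3 o K x s r U g u v Q1 Q2 Q3 x0 =>
  dB p s r U K x u F3 Q3 x0 +
    payS (beI p r) (p.lam s r) o K (cx K x) u (fun k => H652.bS p s r U K u F3 Q3 x0 k) x0

/-- energies of the time `1` at the scale `0` -/
theorem sumU_o0 : SumU 1 (oN 0) := by
  refine PairQ.toU (PairQ.imp H548.enL' ?_)
  intro ι _ _ p n ez F1 F2 F3 o K x s r U g u v Q1 Q2 Q3 X h
  unfold H886.SumQ
  rw [one_mul]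
  exact h 0 (min 0 K) 1 le_rfl (Nat.zero_le _) (min_le_right _ _)

theorem sumU_fE : SumU 1 fE :=
  SumU.add (SumU.add (sumU_gV (Nat.zero_le 1)) sumU_gB)
    (SumU.add (SumU.add sumU_o0 (sumU_gV le_rfl))
      (SumU.add H302.sumU_b0 H989.CrB.sumU_mB))

theorem sumU_fB : SumU (-1) fB := H652.EBU

section pt

variable {ι : Type} [Fintype ι] [DecidableEq ι] {p : H401.Num} {n : ℕ} {ez : ℝ}
  {F1 F2 F3 : ℕ → Pt → ℝ} {o : ℤ} {K : ℕ} {x : Pt} {s r : ℝ} {U : Tri} {g : ℤ → ℤ → ℝ}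
  {u v : ℤ → ℤ → ι → ℝ} {Q1 Q2 Q3 : ℕ → Pt → Prop}

theorem kinds_nonneg (ht : 0 < p.t) (hs : 0 < s) (hr : 1 ≤ r) (o : ℤ) (K : ℕ) (x : Pt)
    (u : ℤ → ℤ → ι → ℝ) (x0 : ℤ) (a : ℕ) (x1 z : ℤ) (w : ι → ℝ) :
    0 ≤ kinds p s r o K x u x0 a x1 z w := by
  have h1 := H548.zm_nonneg ht hs hr o K x u x0 a x1 z w
  have h2 := H548.ze_nonneg ht hs hr o K x u x0 a x1 z w
  have h3 := H548.zd_nonneg ht hs hr o K x u x0 a x1 z w
  have h4 := H548.zq_nonneg ht hs hr o K x u x0 a x1 z w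
  unfold H548.kinds
  linarith

theorem vN_nonneg (ht : 0 < p.t) (hs : 0 < s) (hr : 1 ≤ r) (j q : ℕ) (x0 : ℤ) :
    0 ≤ vN j q ι p n ez F1 F2 F3 o K x s r U g u v Q1 Q2 Q3 x0 :=
  sum_nonneg fun k _ => sum_nonneg fun x1 _ => sum_nonneg fun z _ =>
    add_nonneg (H548.chg_nonneg ht hs hr o K x u x0 (k + q) x1 z _)
      (kinds_nonneg ht hs hr o K x u x0 (k + q) x1 z _)

theorem bN_nonneg (ht : 0 < p.t) (hs : 0 < s) (hr : 1 ≤ r) (q : ℕ) (x0 : ℤ) :
    0 ≤ bN q ι p n ez F1 F2 F3 o K x s r U g u v Q1 Q2 Q3 x0 := by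
  refine sum_nonneg fun k _ => sum_nonneg fun x1 _ => sum_nonneg fun z _ => ?_
  split_ifs
  · exact H302.eT_nn ht hs hr _ _ _ _
  · exact le_rfl

theorem oN_nonneg (ht : 0 < p.t) (hs : 0 < s) (hr : 1 ≤ r) (q : ℕ) (x0 : ℤ) :
    0 ≤ oN q ι p n ez F1 F2 F3 o K x s r U g u v Q1 Q2 Q3 x0 :=
  sum_nonneg fun x1 _ => sum_nonneg fun z _ => H302.eT_nn ht hs hr _ _ _ _

theorem crb_nonneg (ht : 0 < p.t) (hs : 0 < s) (hr : 1 ≤ r) (x0 : ℤ) :
    0 ≤ fCRB mB ι p n ez F1 F2 F3 o K x s r U g u v Q1 Q2 Q3 x0 := by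
  refine sum_nonneg fun k _ => sum_nonneg fun x1 _ => sum_nonneg fun z _ => ?_
  split_ifs
  · exact H302.eT_nn ht hs hr _ _ _ _
  · exact le_rfl

theorem geo_nonneg {f : ℕ → ℝ} (h : ∀ l, 0 ≤ f l) (K : ℕ) :
    0 ≤ ∑ l ∈ range (K + 1), (3 / 4 : ℝ) ^ l * f l :=
  sum_nonneg fun l _ => mul_nonneg (by positivity) (h l)

/-- variation and drift of the lag `q`, letters of `H419`, are below `vN` -/
theorem vd_le (ht : 0 < p.t) (hs : 0 < s) (hr : 1 ≤ r) (j q : ℕ) (x0 : ℤ) :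
    (beI p r)⁻¹ * (∑ k ∈ Ico 0 (K - q), Dn K (cx K x).2.2 (cx K x).1
        (fun k x1 m => ah (p.lam s r) K (cx K x).2.1 (KT (p.lam s r) u x1) (o - 2) x0 x1 k m)
        (cS p ez U K v F2 x0 (k + j)) (k + q)) +
      (beI p r)⁻¹ * (∑ k ∈ Ico 0 (K - q), En K (cx K x).2.2 (cx K x).1
        (fun k x1 m => eb (p.lam s r) K (cx K x).2.1 (KT (p.lam s r) u x1) (o - 2) x0 x1 (k + 1) m)
        (cS p ez U K v F2 x0 (k + j)) (k + q)) ≤
      vN j q ι p n ez F1 F2 F3 o K x s r U g u v Q1 Q2 Q3 x0 := by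
  unfold H548.vN H419.WFamR.Dn H419.WFamR.En
  rw [← range_eq_Ico, mul_sum, mul_sum, ← sum_add_distrib]
  refine sum_le_sum fun k _ => ?_
  rw [mul_sum, mul_sum, ← sum_add_distrib]
  refine sum_le_sum fun x1 _ => ?_
  rw [mul_sum, mul_sum, ← sum_add_distrib]
  refine sum_le_sum fun z _ => ?_
  have h1 := H548.raw_le ht hs hr o K x u x0 (k + q) x1 z (cS p ez U K v F2 x0 (k + j) x1 z)
  have h2 := kinds_nonneg ht hs hr o K x u x0 (k + q) x1 z (cS p ez U K v F2 x0 (k + j) x1 z)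
  linarith

end pt

/-- **The numbers of the pair `(Bg, Cg)` at class data.** -/
theorem numBC : NumBC (18 * 120000) 2 := by
  refine H222.Of.numBC_of sumU_fE sumU_fB ?_
  intro ι _ _ p n ez F1 F2 F3 o K x s r U g u v Q1 Q2 Q3 ht ht1 he0 he01 hk3 hk31 hd hd1 hc he hcP
    hL ho hKn hs hr hcls q1 q2 q3 hez hU hP
  have hr0 : 0 < r := by linarith
  have hl : 0 < p.lam s r := H401.Num.lam_pos (p := p) ht hs hr
  have hbe : 0 < beI p r := Real.rpow_pos_of_pos (div_pos ht hr0) _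
  have hbe1 : beI p r ≤ 1 := H548.beI_le_one ht ht1 he0.le hr
  have hbi : 1 ≤ (beI p r)⁻¹ := (one_le_inv₀ hbe).2 hbe1
  have nv := fun j q x0 => vN_nonneg (ι := ι) (p := p) (n := n) (ez := ez) (F1 := F1) (F2 := F2)
    (F3 := F3) (o := o) (K := K) (x := x) (s := s) (r := r) (U := U) (g := g) (u := u) (v := v)
    (Q1 := Q1) (Q2 := Q2) (Q3 := Q3) ht hs hr j q x0
  have nb := fun q x0 => bN_nonneg (ι := ι) (p := p) (n := n) (ez := ez) (F1 := F1) (F2 := F2)
    (F3 := F3) (o := o) (K := K) (x := x) (s := s) (r := r) (U := U) (g := g) (u := u) (v := v)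
    (Q1 := Q1) (Q2 := Q2) (Q3 := Q3) ht hs hr q x0
  have no := fun q x0 => oN_nonneg (ι := ι) (p := p) (n := n) (ez := ez) (F1 := F1) (F2 := F2)
    (F3 := F3) (o := o) (K := K) (x := x) (s := s) (r := r) (U := U) (g := g) (u := u) (v := v)
    (Q1 := Q1) (Q2 := Q2) (Q3 := Q3) ht hs hr q x0
  have nc := fun x0 => crb_nonneg (ι := ι) (p := p) (n := n) (ez := ez) (F1 := F1) (F2 := F2)
    (F3 := F3) (o := o) (K := K) (x := x) (s := s) (r := r) (U := U) (g := g) (u := u) (v := v)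
    (Q1 := Q1) (Q2 := Q2) (Q3 := Q3) ht hs hr x0
  have nE : ∀ x0, 0 ≤ fE ι p n ez F1 F2 F3 o K x s r U g u v Q1 Q2 Q3 x0 := fun x0 =>
    add_nonneg (add_nonneg (geo_nonneg (fun l => nv 0 l x0) K) (geo_nonneg (fun l => nb (l + 1) x0) K))
      (add_nonneg (add_nonneg (no 0 x0) (geo_nonneg (fun l => nv 1 l x0) K))
        (add_nonneg (nb 0 x0) (nc x0)))
  have ndB : ∀ x0, 0 ≤ dB p s r U K x u F3 Q3 x0 := fun x0 => H652.dB_nonneg x x0
  have npay : ∀ x0, 0 ≤ payS (beI p r) (p.lam s r) o K (cx K x) u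
      (fun k => H652.bS p s r U K u F3 Q3 x0 k) x0 := by
    intro x0
    exact H652.payS_nonneg hbe hl _
  have nB : ∀ x0, 0 ≤ fB ι p n ez F1 F2 F3 o K x s r U g u v Q1 Q2 Q3 x0 := fun x0 =>
    add_nonneg (ndB x0) (npay x0)
  refine ⟨nE, nB, fun t ht' x0 hx0 z J hz1 hz2 hJ => ?_⟩
  have hth : 0 < p.th s r := H401.Num.th_pos ht hs hr
  have hτ : 0 < tauI p s r := mul_pos two_pos hth
  have hz : 0 < z := lt_of_lt_of_le (mul_pos (Real.rpow_pos_of_pos (div_pos ht hr0) _) hτ) hz1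
  have hT := H652.wt_Th (fun y => tr_T hl K u y) (cx K x).2.1 (o - 2) x0
  refine (H329.WinBC.pBC_cls ht hs hr ez U o K x u v F2 F3 Q3 hτ hz x0).trans ?_
  rw [← H74.CutBC.GW_win_cut]
  have e0 := nE x0
  have b0 := nB x0
  set E := fE ι p n ez F1 F2 F3 o K x s r U g u v Q1 Q2 Q3 x0 with hE
  set EB := fB ι p n ez F1 F2 F3 o K x s r U g u v Q1 Q2 Q3 x0 with hEB
  have g0 : gV 0 ι p n ez F1 F2 F3 o K x s r U g u v Q1 Q2 Q3 x0 ≤ E := by
    have h1 := geo_nonneg (fun l => nb (l + 1) x0) K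
    have h2 := no 0 x0
    have h3 := geo_nonneg (fun l => nv 1 l x0) K
    have h4 := nb 0 x0
    have h5 := nc x0
    rw [hE]
    unfold fE gB gV at *
    linarith
  have g1 : gV 1 ι p n ez F1 F2 F3 o K x s r U g u v Q1 Q2 Q3 x0 ≤ E := by
    have h1 := geo_nonneg (fun l => nb (l + 1) x0) K
    have h2 := no 0 x0
    have h3 := geo_nonneg (fun l => nv 0 l x0) K
    have h4 := nb 0 x0
    have h5 := nc x0
    rw [hE]
    unfold fE gB gV at *
    linarith
  have g2 : gB ι p n ez F1 F2 F3 o K x s r U g u v Q1 Q2 Q3 x0 ≤ E := by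
    have h1 := geo_nonneg (fun l => nv 0 l x0) K
    have h2 := no 0 x0
    have h3 := geo_nonneg (fun l => nv 1 l x0) K
    have h4 := nb 0 x0
    have h5 := nc x0
    rw [hE]
    unfold fE gB gV at *
    linarith
  have g3 : oN 0 ι p n ez F1 F2 F3 o K x s r U g u v Q1 Q2 Q3 x0 ≤ E := by
    have h1 := geo_nonneg (fun l => nv 0 l x0) K
    have h2 := geo_nonneg (fun l => nb (l + 1) x0) K
    have h3 := geo_nonneg (fun l => nv 1 l x0) K
    have h4 := nb 0 x0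
    have h5 := nc x0
    rw [hE]
    unfold fE gB gV at *
    linarith
  have g4 : bN 0 ι p n ez F1 F2 F3 o K x s r U g u v Q1 Q2 Q3 x0 ≤ E := by
    have h1 := geo_nonneg (fun l => nv 0 l x0) K
    have h2 := geo_nonneg (fun l => nb (l + 1) x0) K
    have h3 := geo_nonneg (fun l => nv 1 l x0) K
    have h4 := no 0 x0
    have h5 := nc x0
    rw [hE]
    unfold fE gB gV at *
    linarith
  have g5 : fCRB mB ι p n ez F1 F2 F3 o K x s r U g u v Q1 Q2 Q3 x0 ≤ E := by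
    have h1 := geo_nonneg (fun l => nv 0 l x0) K
    have h2 := geo_nonneg (fun l => nb (l + 1) x0) K
    have h3 := geo_nonneg (fun l => nv 1 l x0) K
    have h4 := no 0 x0
    have h5 := nb 0 x0
    rw [hE]
    unfold fE gB gV at *
    linarith
  have v1 : vN 1 0 ι p n ez F1 F2 F3 o K x s r U g u v Q1 Q2 Q3 x0 ≤ E := by
    refine le_trans ?_ g1
    have h := single_le_sum (f := fun l => (3 / 4 : ℝ) ^ l *
      vN 1 l ι p n ez F1 F2 F3 o K x s r U g u v Q1 Q2 Q3 x0)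
      (fun l _ => mul_nonneg (by positivity) (nv 1 l x0)) (mem_range.2 (Nat.succ_pos K))
    rw [pow_zero, one_mul] at h
    exact h
  have q1 : dB p s r U K x u F3 Q3 x0 ≤ EB := le_add_of_nonneg_right (npay x0)
  have q3' : payS (beI p r) (p.lam s r) o K (cx K x) u (fun k => H652.bS p s r U K u F3 Q3 x0 k) x0
      ≤ EB := le_add_of_nonneg_left (ndB x0)
  have vd1 := vd_le (ι := ι) (p := p) (n := n) (ez := ez) (F1 := F1) (F2 := F2)
    (F3 := F3) (o := o) (K := K) (x := x) (s := s) (r := r) (U := U) (g := g) (u := u) (v := v)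
    (Q1 := Q1) (Q2 := Q2) (Q3 := Q3) ht hs hr
  have nD := fun (c : ℕ → ℤ → ℤ → ι → ℝ) (q : ℕ) => mul_nonneg (inv_nonneg.2 hbe.le)
    (nmD_nonneg (d := fun k x1 m => ah (p.lam s r) K (cx K x).2.1 (KT (p.lam s r) u x1) (o - 2)
      x0 x1 k m) K (cx K x).2.2 (cx K x).1 c q)
  have nE' := fun (c : ℕ → ℤ → ℤ → ι → ℝ) (q : ℕ) => mul_nonneg (inv_nonneg.2 hbe.le)
    (nmE_nonneg (e := fun k x1 m => eb (p.lam s r) K (cx K x).2.1 (KT (p.lam s r) u x1) (o - 2)
      x0 x1 (k + 1) m) hT.pe K (cx K x).2.2 (cx K x).1 c q)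
  have main := H736.fix_BC2 (κ := ι) hbe hbe1 (s := z ^ 2) (q := p.th s r ^ 2) (τ := 2)
    (by positivity) (sq_nonneg _) (by norm_num) le_rfl hT
    (fun k y m => H652.Th_le_two (M := (cx K x).2.1) (tr_T hl K u y) (o - 2) x0 y k m)
    (N := K) (b := H652.bS p s r U K u F3 Q3 x0)
    (c := H170.Win.cut K (cx K x).1 (cx K x).2.2 (cS p ez U K v F2 x0))
    (Pb := PbS p s r U K u F3 Q3 x0) (Pc := Pr (cS p ez U K v F2 x0))
    (H652.PbS_off x0) (H74.CutBC.cut_row (H302.pr_not (N := K)))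
    (H652.bS_capk hth x0) (H652.bS_capk1 hth x0) (H652.bS_capN hth x0)
    (C := cCI p s r ^ 2)
    (fun k a n' m h1 h2 => H74.CapBC.cut_capX ht ht1 hd1 he0.le hs hr hez hKn hcls.toCls q2 x0
      (by omega) (by omega) (by omega) n' m)
    (fun k a n' m h1 h2 => H74.CapBC.cut_capX ht ht1 hd1 he0.le hs hr hez hKn hcls.toCls q2 x0
      (by omega) (by omega) (by omega) n' m)
    (J := J) (by nlinarith [hJ])
    (R₁ := (cx K x).2.1) (S₁ := (cx K x).1) (T₁ := (cx K x).2.2) (cc := cP o x0)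
    (H677.cP_pl ho x0) (E := E) (EB := EB) e0 b0
    ((H652.bS_hB1 x x0).trans q1) ((H652.bS_hB2 x x0).trans q1)
    ((H652.pay_hB3 hbe hl _).trans q3') ((H652.pay_hB4 hbe _).trans q3')
    (by
      rw [H74.CutBC.c1_cut, H74.CutBC.nmH_cut]
      refine le_trans (le_of_eq ?_) g3
      unfold nmH H419.WFamR.Wn c1 H548.oN H505.Sk1.eT
      refine sum_congr rfl fun x1 _ => sum_congr rfl fun z1 _ => ?_
      rw [Nat.zero_min, H548.cS_min, H548.cS_min]
      have e1 : min (min (0 + 1) K) K = min 1 K := by omega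
      rw [e1]
      rfl)
    (by
      rw [H74.CutBC.c1_cut, H74.CutBC.nmD_cut, nmD_c1]
      have h := vd1 1 0 x0
      have h2 := nE' (c1 K (cS p ez U K v F2 x0)) 0
      rw [nmE_c1] at h2
      linarith)
    (by
      rw [H74.CutBC.c1_cut, H74.CutBC.nmE_cut, nmE_c1]
      have h := vd1 1 0 x0
      have h2 := nD (c1 K (cS p ez U K v F2 x0)) 0
      rw [nmD_c1] at h2
      linarith)
    (by
      refine le_trans (le_of_eq ?_) g5
      refine sum_congr rfl fun k hk => sum_congr rfl fun x1 hx1 => sum_congr rfl fun z1 hz1 => ?_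
      rw [H74.CutBC.wE_cut (mem_Ico.1 hk).2 hx1 hz1]
      rfl)
    (by
      refine le_trans (le_of_eq (sum_congr rfl fun k hk =>
        H74.CutBC.Wn_rs_cut (mem_Ico.1 hk).2 _ _ _)) ?_
      exact (H302.Wn_bN ht hs hr (fun k w m h => H302.pr_ch k w m h) n F1 F3 g Q1 Q2 Q3).trans g4)
    (by
      rw [H74.CutBC.nmH_cut]
      refine le_trans (le_of_eq ?_) e0
      refine sum_eq_zero fun q _ => ?_
      have h : nmH K (cx K x).2.2 (cx K x).1 (beI p r) (fun k x1 m =>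
          Th (p.lam s r) K (cx K x).2.1 (KT (p.lam s r) u x1) (o - 2) x0 x1 k m)
          (cS p ez U K v F2 x0) q = 0 := by
        unfold nmH H419.WFamR.Wn
        refine sum_eq_zero fun x1 _ => sum_eq_zero fun z1 _ => ?_
        rw [H548.cS_zero, zero_dotProduct]
      rw [h, mul_zero])
    (by
      rw [H74.CutBC.nmD_cut]
      refine le_trans (sum_le_sum fun q _ => mul_le_mul_of_nonneg_left ?_ (by positivity)) g0
      have h := vd1 0 q x0
      have h2 := nE' (cS p ez U K v F2 x0) q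
      unfold nmE at h2
      unfold nmD
      simp only [add_zero] at h
      linarith)
    (by
      rw [H74.CutBC.nmE_cut]
      refine le_trans (sum_le_sum fun q _ => mul_le_mul_of_nonneg_left ?_ (by positivity)) g0
      have h := vd1 0 q x0
      have h2 := nD (cS p ez U K v F2 x0) q
      unfold nmD at h2
      unfold nmE
      simp only [add_zero] at h
      linarith)
    (by
      rw [H74.CutBC.nmB_cut]
      refine le_trans (sum_le_sum fun q _ => mul_le_mul_of_nonneg_left ?_ (by positivity)) g2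
      exact H302.nmB_bN ht hs hr (fun k w m h => H302.pr_ch k w m h) q n F1 F3 g Q1 Q2 Q3)
  refine main.trans ?_
  have hq : p.th s r ^ 2 ≤ tauI p s r ^ 2 := by
    unfold tauI
    nlinarith [sq_nonneg (p.th s r)]
  have k1 : p.th s r ^ 2 * E ≤ tauI p s r ^ 2 * E := mul_le_mul_of_nonneg_right hq e0
  have k2 : √(z ^ 2 * E * (p.th s r ^ 2 * EB)) ≤ √(z ^ 2 * E * (tauI p s r ^ 2 * EB)) :=
    Real.sqrt_le_sqrt (mul_le_mul_of_nonneg_left (mul_le_mul_of_nonneg_right hq b0)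
      (by positivity))
  have k3 : (0 : ℝ) ≤ 18 * (120000 * ((J : ℝ) + 1) ^ 3) := by positivity
  refine (mul_le_mul_of_nonneg_left (add_le_add k2 k1) k3).trans (le_of_eq ?_)
  ring

/-- **The leaf `LBCg`.** -/
theorem lBCg : LBCg := lbc_end (by norm_num) (by norm_num) numBC

end

end Vale.Agent.P141.H121.BCF
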